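import Vale.Agent.P011.E6.Act
import Vale.Agent.P011.E6.Coord

/-!
Subgroups of the group of type `²E₆` and the special unitary groups of degree three.
-/

open Matrix

namespace Vale.Agent.P011.E6.H64

open Vale.Agent.P011.MPQ Vale.Agent.P011.D4 Vale.Agent.P011.D4.Oct Vale.Agent.P011.E6.Alb

theorem re_gen {F : Type} [Field F] {a b : Fˣ} (t : F) (x y : Qt a b) :
    ((t • star x) * star (t • star y)).re = t * (star y * (t : Qt a b) * x).re := by
  simp [-mul_eq_mul_left_iff]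
  ring

section glue

variable {k K : Type} [Field k] [Field K] [Algebra k K] {a b c a' b' c' : kˣ} {σ : K ≃ₐ[k] K}
  {g g' : Fin 3 → kˣ}

/-- The hermitian form of degree three over the quaternion algebra is anisotropic. -/
theorem anis_Q (h2 : (2 : K) ≠ 0) (hanis : ∀ x : AlbL K a b c, herm σ g x x = 0 → x = 0)
    (v : Fin 3 → Qt (up K a) (up K b))
    (hv : ∑ i, star (qmap σ (v i)) * (((upG K g i : Kˣ) : K) : Qt (up K a) (up K b)) * v i = 0) :
    v = 0 := by
  set w : Fin 3 → Qt (up K a) (up K b) := fun i => ((upG K g i : Kˣ) : K) • star (v i) with hw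
  have hre : ∀ i, (w i * star (qmap σ (w i))).re = ((upG K g i : Kˣ) : K) *
      (star (qmap σ (v i)) * (((upG K g i : Kˣ) : K) : Qt (up K a) (up K b)) * v i).re := by
    intro i
    have hs : σ ((upG K g i : Kˣ) : K) = ((upG K g i : Kˣ) : K) := σ.commutes _
    simp only [hw, qmap_smul, hs, qmap_star]
    exact re_gen _ _ _
  have h1 := congrArg QuaternionAlgebra.re hv
  rw [Fin.sum_univ_three] at h1
  simp only [QuaternionAlgebra.re_add, QuaternionAlgebra.re_zero] at h1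
  have h3 := hanis (ofMV 0 w) (by
    rw [herm, tf_eq]
    have e1 : mat (ofMV 0 w : AlbL K a b c) = 0 := mat_ofMV h2 isHermitian_zero w
    have e2 : Alb.vec (amap σ (ofMV 0 w : AlbL K a b c)) = fun i => qmap σ (w i) := by
      funext i
      rw [vec_amap, vec_ofMV]
    have n0 := Units.ne_zero (upG K g 0)
    have n1 := Units.ne_zero (upG K g 1)
    have n2 := Units.ne_zero (upG K g 2)
    rw [e1, e2, vec_ofMV, Matrix.zero_mul, Matrix.zero_mul, Matrix.zero_mul, Matrix.trace_zero,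
      row_eq, hre, hre, hre, Units.val_inv_eq_inv_val, Units.val_inv_eq_inv_val,
      Units.val_inv_eq_inv_val, inv_mul_cancel_left₀ n0, inv_mul_cancel_left₀ n1,
      inv_mul_cancel_left₀ n2, h1, QuaternionAlgebra.re_zero]
    ring)
  have h5 : w = 0 := by
    rw [← vec_ofMV (c := up K c) 0 w, h3]
    funext i
    fin_cases i <;> rfl
  funext i
  have h4 : ((upG K g i : Kˣ) : K) • star (v i) = 0 := congrFun h5 i
  rcases smul_eq_zero.1 h4 with h5 | h5
  · exact absurd h5 (Units.ne_zero _)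
  · exact star_eq_zero.1 h5

/-- Transport of anisotropy. -/
theorem anis_coord {ψ : AlbL K a' b' c' ≃ₗ[K] AlbL K a b c} (h : IsCoord σ g g' ψ)
    (hanis : ∀ x : AlbL K a b c, herm σ g x x = 0 → x = 0) (x : AlbL K a' b' c')
    (hx : herm σ g' x x = 0) : x = 0 := by
  rw [← h.herm] at hx
  exact ψ.map_eq_zero_iff.1 (hanis _ hx)

/-- The quaternion subalgebra of a division octonion algebra is a division algebra. -/
theorem aniso_of_division {F : Type} [Field F] {a b c : Fˣ} (h : Division a b c) :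
    Aniso a b := by
  intro x hx
  have h1 : (⟨x, 0⟩ : Oct a b c) = 0 := h _ (by
    rw [Oct.norm, hx]
    simp [nrd])
  exact congrArg Oct.fst h1

/-- The homomorphism from the special unitary group of degree three, in any coordinates. -/
def coordHom {ψ : AlbL K a' b' c' ≃ₗ[K] AlbL K a b c} (h : IsCoord σ g g' ψ) (h2 : (2 : K) ≠ 0)
    (hQ : Aniso (up K a') (up K b')) : SUQ σ a' b' g' h2 hQ →* GE σ a b c g :=
  h.conj.toMonoidHom.comp (toGE σ a' b' c' g' h2 hQ)

theorem coordHom_apply {ψ : AlbL K a' b' c' ≃ₗ[K] AlbL K a b c} (h : IsCoord σ g g' ψ)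
    (h2 : (2 : K) ≠ 0) (hQ : Aniso (up K a') (up K b')) (m : SUQ σ a' b' g' h2 hQ)
    (x : AlbL K a' b' c') : (coordHom h h2 hQ m).1 (ψ x) = ψ (act m.1 1 x) := by
  change ψ ((toGE σ a' b' c' g' h2 hQ m).1 (ψ.symm (ψ x))) = _
  rw [LinearEquiv.symm_apply_apply]
  rfl

theorem eq_coordHom {ψ : AlbL K a' b' c' ≃ₗ[K] AlbL K a b c} (h : IsCoord σ g g' ψ)
    (h2 : (2 : K) ≠ 0) (hQ : Aniso (up K a') (up K b')) (m : SUQ σ a' b' g' h2 hQ)
    {φ : AlbL K a b c ≃ₗ[K] AlbL K a b c} (hφ : ∀ x, φ (ψ x) = ψ (act m.1 1 x)) :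
    φ = (coordHom h h2 hQ m).1 := by
  apply LinearEquiv.ext
  intro y
  rw [← ψ.apply_symm_apply y, hφ, coordHom_apply]

theorem coordHom_mem_iff {ψ : AlbL K a' b' c' ≃ₗ[K] AlbL K a b c} (h : IsCoord σ g g' ψ)
    (h2 : (2 : K) ≠ 0) (hQ : Aniso (up K a') (up K b')) (N : Subgroup (GE σ a b c g))
    (m : SUQ σ a' b' g' h2 hQ) :
    coordHom h h2 hQ m ∈ N ↔ (coordHom h h2 hQ m).1 ∈ N.map (GE σ a b c g).subtype := by
  constructor
  · intro hm
    exact ⟨_, hm, rfl⟩
  · rintro ⟨n, hn, he⟩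
    rwa [← Subtype.ext he]

/-- A subgroup of finite index contains the special unitary group. -/
theorem mem_of_index {ψ : AlbL K a' b' c' ≃ₗ[K] AlbL K a b c} (h : IsCoord σ g g' ψ)
    (h2 : (2 : K) ≠ 0) (hQ : Aniso (up K a') (up K b'))
    (hsu : ∀ S : Subgroup (SUQ σ a' b' g' h2 hQ), S.index ≠ 0 → S = ⊤)
    (N : Subgroup (GE σ a b c g)) (hN : N.index ≠ 0) (m : SUQ σ a' b' g' h2 hQ) :
    coordHom h h2 hQ m ∈ N := by
  have h1 : (N.comap (coordHom h h2 hQ)).index ≠ 0 := by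
    have h5 := Subgroup.relIndex_comap_ne_zero (coordHom h h2 hQ) (J := N) (K := ⊤)
      (by rwa [Subgroup.relIndex_top_right])
    rwa [Subgroup.comap_top, Subgroup.relIndex_top_right] at h5
  have h3 := hsu _ h1
  have h4 : m ∈ N.comap (coordHom h h2 hQ) := h3 ▸ Subgroup.mem_top m
  exact h4

/-- A normal subgroup which meets the special unitary group in a noncentral element
contains it. -/
theorem mem_of_normal {ψ : AlbL K a' b' c' ≃ₗ[K] AlbL K a b c} (h : IsCoord σ g g' ψ)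
    (h2 : (2 : K) ≠ 0) (hQ : Aniso (up K a') (up K b'))
    (hsu : ∀ S : Subgroup (SUQ σ a' b' g' h2 hQ), S.Normal →
      S ≤ Subgroup.center (SUQ σ a' b' g' h2 hQ) ∨ S = ⊤)
    (N : Subgroup (GE σ a b c g)) (hN : N.Normal) {m₀ : SUQ σ a' b' g' h2 hQ}
    (hm₀ : m₀ ∉ Subgroup.center (SUQ σ a' b' g' h2 hQ)) (hmN : coordHom h h2 hQ m₀ ∈ N)
    (m : SUQ σ a' b' g' h2 hQ) : coordHom h h2 hQ m ∈ N := by
  rcases hsu (N.comap (coordHom h h2 hQ)) (hN.comap _) with h1 | h1
  · exact absurd (h1 hmN) hm₀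
  · have h4 : m ∈ N.comap (coordHom h h2 hQ) := h1 ▸ Subgroup.mem_top m
    exact h4

end glue

end Vale.Agent.P011.E6.H64
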