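import Vale.Agent.P011.E6.H64.Her
import Vale.Agent.P011.E6.Defs

/-!
The action of the unitary groups of degree three over the quaternion subalgebras.
-/

open Matrix

namespace Vale.Agent.P011.E6.H64

open Vale.Agent.P011.MPQ Vale.Agent.P011.D4 Vale.Agent.P011.D4.Oct Vale.Agent.P011.E6.Alb

section act

variable {F : Type} [Field F] {a b c : Fˣ}

theorem mat_eq_her (x : Alb a b c) : mat x = her x.d1 x.d2 x.d3 x.x1.fst x.x2.fst x.x3.fst := rfl

theorem mat_isHermitian (x : Alb a b c) : (mat x).IsHermitian := her_isHermitian _ _ _ _ _ _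

theorem ofMV_mat_vec (x : Alb a b c) : ofMV (mat x) (Alb.vec x) = x := by
  obtain ⟨d1, d2, d3, x1, x2, x3⟩ := x
  simp only [ofMV, mat, Alb.vec]
  rfl

theorem vec_ofMV (S : Matrix (Fin 3) (Fin 3) (Qt a b)) (v : Fin 3 → Qt a b) :
    Alb.vec (ofMV S v : Alb a b c) = v := by
  funext i
  fin_cases i <;> rfl

theorem mat_ofMV (h2 : (2 : F) ≠ 0) {S : Matrix (Fin 3) (Fin 3) (Qt a b)} (hS : S.IsHermitian)
    (v : Fin 3 → Qt a b) : mat (ofMV S v : Alb a b c) = S := by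
  conv_rhs => rw [eq_her h2 hS]
  rfl

theorem conj_isHermitian {n : Type} [Fintype n] {S : Matrix n n (Qt a b)} (hS : S.IsHermitian)
    {l : Type} (m : Matrix l n (Qt a b)) : (m * S * mᴴ).IsHermitian := by
  rw [IsHermitian, conjTranspose_mul, conjTranspose_mul, conjTranspose_conjTranspose, hS.eq,
    Matrix.mul_assoc]

/-- A vector as a matrix with one row. -/
def row (v : Fin 3 → Qt a b) : Matrix (Fin 1) (Fin 3) (Qt a b) := Matrix.of fun _ => v

theorem row_inj {v w : Fin 3 → Qt a b} (h : row v = row w) : v = w := by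
  funext i
  exact congrFun (congrFun h 0) i

theorem row_vecMul (v : Fin 3 → Qt a b) (m : Matrix (Fin 3) (Fin 3) (Qt a b)) :
    row (vecMul v m) = row v * m := rfl

theorem row_smul (κ : Qt a b) (v : Fin 3 → Qt a b) :
    row (fun i => κ * v i) = (Matrix.of fun _ _ => κ : Matrix (Fin 1) (Fin 1) (Qt a b)) * row v := by
  apply Matrix.ext
  intro i j
  simp [row, Matrix.mul_apply]

theorem cub_eq (x : Alb a b c) : cub x =
    herN (mat x) + c * ((row (Alb.vec x) * mat x * (row (Alb.vec x))ᴴ) 0 0).re := by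
  rw [mat_eq_her, herN_her]
  simp [cub, Oct.norm, nrd, bil_eq, row, Alb.vec, her, Matrix.mul_apply, Fin.sum_univ_three]
  ring

theorem cub_ofMV_zero (S : Matrix (Fin 3) (Fin 3) (Qt a b)) :
    cub (ofMV S 0 : Alb a b c) = herN S := by
  simp [cub, ofMV, herN, Oct.norm, nrd, bil_eq, -mul_eq_mul_left_iff]
  ring

theorem nu_eq (g : Matrix (Fin 3) (Fin 3) (Qt a b)) : nu g = herN (g * gᴴ) := cub_ofMV_zero _

theorem herN_one : herN (1 : Matrix (Fin 3) (Fin 3) (Qt a b)) = 1 := by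
  simp [herN, nrd]

theorem nu_one : nu (1 : Matrix (Fin 3) (Fin 3) (Qt a b)) = 1 := by
  rw [nu_eq, conjTranspose_one, mul_one, herN_one]

theorem isUnit_or_zero (hQ : Aniso a b) (x : Qt a b) : IsUnit x ∨ x = 0 := by
  by_cases hx : x = 0
  · exact Or.inr hx
  · exact Or.inl (isUnit_of_nrd fun h => hx (hQ x h))

theorem herN_single' (h2 : (2 : F) ≠ 0) {S : Matrix (Fin 3) (Fin 3) (Qt a b)}
    (hS : S.IsHermitian) {i j : Fin 3} (hij : i ≠ j) (q : Qt a b) :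
    herN ((1 + single i j q) * S * (1 + single i j q)ᴴ) = herN S := by
  rw [eq_her h2 hS]
  exact herN_single hij _ _ _ _ _ _ _

theorem herN_single_diag' (h2 : (2 : F) ≠ 0) {S : Matrix (Fin 3) (Fin 3) (Qt a b)}
    (hS : S.IsHermitian) {i : Fin 3} (q : Qt a b) :
    herN ((1 + single i i q) * S * (1 + single i i q)ᴴ) = nrd (1 + q) * herN S := by
  rw [eq_her h2 hS]
  exact herN_single_diag _ _ _ _ _ _ _ _

theorem herN_mul (h2 : (2 : F) ≠ 0) (hQ : Aniso a b) (M : Matrix (Fin 3) (Fin 3) (Qt a b)) :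
    ∀ S : Matrix (Fin 3) (Fin 3) (Qt a b), S.IsHermitian →
      herN (M * S * Mᴴ) = nu M * herN S := by
  have h1 : (1 : Matrix (Fin 3) (Fin 3) (Qt a b)).IsHermitian := isHermitian_one
  have key := mat3_induction' (isUnit_or_zero hQ)
    (P := fun M => ∀ S : Matrix (Fin 3) (Fin 3) (Qt a b), S.IsHermitian →
      herN (M * S * Mᴴ) = herN (M * 1 * Mᴴ) * herN S) ?_ ?_ M
  · intro S hS
    rw [key S hS, nu_eq, mul_one]
  · intro A B hA hB S hS
    have e : ∀ T : Matrix (Fin 3) (Fin 3) (Qt a b), A * B * T * (A * B)ᴴ = A * (B * T * Bᴴ) * Aᴴ :=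
      fun T => by rw [conjTranspose_mul]; simp only [Matrix.mul_assoc]
    rw [e, e, hA _ (conj_isHermitian hS B), hA _ (conj_isHermitian h1 B), hB S hS, ← mul_assoc]
  · intro i j q S hS
    by_cases hij : i = j
    · subst hij
      rw [herN_single_diag' h2 hS, herN_single_diag' h2 h1, herN_one, mul_one]
    · rw [herN_single' h2 hS hij, herN_single' h2 h1 hij, herN_one, one_mul]

theorem nu_mul (h2 : (2 : F) ≠ 0) (hQ : Aniso a b) (A B : Matrix (Fin 3) (Fin 3) (Qt a b)) :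
    nu (A * B) = nu A * nu B := by
  have e : A * B * (A * B)ᴴ = A * (B * 1 * Bᴴ) * Aᴴ := by
    rw [conjTranspose_mul]; simp only [Matrix.mul_assoc, Matrix.mul_one]
  rw [nu_eq, e, herN_mul h2 hQ _ _ (conj_isHermitian isHermitian_one B), nu_eq B, mul_one]

theorem rN_eq_nu {F' : Type} [Field F'] [Algebra F F'] (h2 : (2 : F) ≠ 0) (hQ : Aniso a b)
    (f : Qt a b →ₐ[F] Matrix (Fin 2) (Fin 2) F') (hf : ∀ x, (f x).det = algebraMap F F' (nrd x))
    (M : Matrix (Fin 3) (Fin 3) (Qt a b)) : rN f M = algebraMap F F' (nu M) := by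
  have h := herN_conj f h2 hQ hf M 1 isHermitian_one
  rw [herN_one, map_one, mul_one, mul_one] at h
  rw [nu_eq, h]

/-! ### The action -/

theorem ext_mat_vec {x y : Alb a b c} (h1 : mat x = mat y)
    (h2 : row (Alb.vec x) = row (Alb.vec y)) : x = y := by
  rw [← ofMV_mat_vec x, ← ofMV_mat_vec y, h1, row_inj h2]

theorem mat_act (h2 : (2 : F) ≠ 0) (g : (Matrix (Fin 3) (Fin 3) (Qt a b))ˣ) (κ : Qt a b)
    (x : Alb a b c) : mat (act g κ x) = (g : Matrix (Fin 3) (Fin 3) (Qt a b)) * mat x *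
      (g : Matrix (Fin 3) (Fin 3) (Qt a b))ᴴ :=
  mat_ofMV h2 (conj_isHermitian (mat_isHermitian x) _) _

/-- A quaternion as a matrix of size one. -/
def q1 (κ : Qt a b) : Matrix (Fin 1) (Fin 1) (Qt a b) := Matrix.of fun _ _ => κ

theorem q1_mul (κ κ' : Qt a b) : q1 (κ * κ') = q1 κ * q1 κ' := by
  apply Matrix.ext
  intro i j
  simp [q1, Matrix.mul_apply]

theorem q1_one : q1 (1 : Qt a b) = 1 := by
  apply Matrix.ext
  intro i j
  fin_cases i
  fin_cases j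
  simp [q1]

theorem row_vec_act (g : (Matrix (Fin 3) (Fin 3) (Qt a b))ˣ) (κ : Qt a b) (x : Alb a b c) :
    row (Alb.vec (act g κ x)) = q1 κ * (row (Alb.vec x) *
      ((g⁻¹ : (Matrix (Fin 3) (Fin 3) (Qt a b))ˣ) : Matrix (Fin 3) (Fin 3) (Qt a b))) := by
  rw [act, vec_ofMV, row_smul, row_vecMul]
  rfl

theorem act_act (h2 : (2 : F) ≠ 0) (g g' : (Matrix (Fin 3) (Fin 3) (Qt a b))ˣ) (κ κ' : Qt a b)
    (x : Alb a b c) : act g κ (act g' κ' x) = act (g * g') (κ * κ') x := by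
  apply ext_mat_vec
  · rw [mat_act h2, mat_act h2, mat_act h2, Units.val_mul, conjTranspose_mul]
    simp only [Matrix.mul_assoc]
  · rw [row_vec_act, row_vec_act, row_vec_act, q1_mul, _root_.mul_inv_rev, Units.val_mul]
    simp only [Matrix.mul_assoc]

theorem act_one_one (h2 : (2 : F) ≠ 0) (x : Alb a b c) : act 1 1 x = x := by
  apply ext_mat_vec
  · rw [mat_act h2, Units.val_one, conjTranspose_one, Matrix.one_mul, Matrix.mul_one]
  · rw [row_vec_act, q1_one, inv_one, Units.val_one, Matrix.one_mul, Matrix.mul_one]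

theorem mat_add (x y : Alb a b c) : mat (x + y) = mat x + mat y := by
  apply Matrix.ext
  intro i j
  fin_cases i <;> fin_cases j <;> simp [mat]

theorem mat_smul (t : F) (x : Alb a b c) : mat (t • x) = t • mat x := by
  apply Matrix.ext
  intro i j
  fin_cases i <;> fin_cases j <;> simp [mat, Algebra.smul_def] <;>
    exact (QuaternionAlgebra.coe_commutes t _).symm

theorem ofMV_add (S S' : Matrix (Fin 3) (Fin 3) (Qt a b)) (v v' : Fin 3 → Qt a b) :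
    (ofMV (S + S') (v + v') : Alb a b c) = ofMV S v + ofMV S' v' := rfl

theorem ofMV_smul (t : F) (S : Matrix (Fin 3) (Fin 3) (Qt a b)) (v : Fin 3 → Qt a b) :
    (ofMV (t • S) (t • v) : Alb a b c) = t • ofMV S v := rfl

theorem vec_add (x y : Alb a b c) : Alb.vec (x + y) = Alb.vec x + Alb.vec y := by
  funext i
  fin_cases i <;> rfl

theorem vec_smul (t : F) (x : Alb a b c) : Alb.vec (t • x) = t • Alb.vec x := by
  funext i
  fin_cases i <;> rfl

theorem act_add (g : (Matrix (Fin 3) (Fin 3) (Qt a b))ˣ) (κ : Qt a b) (x y : Alb a b c) :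
    act g κ (x + y) = act g κ x + act g κ y := by
  rw [act, act, act, ← ofMV_add, mat_add, vec_add, Matrix.mul_add, Matrix.add_mul]
  congr 1
  funext i
  rw [Matrix.add_vecMul, Pi.add_apply, Pi.add_apply, mul_add]

theorem act_smul (g : (Matrix (Fin 3) (Fin 3) (Qt a b))ˣ) (κ : Qt a b) (t : F) (x : Alb a b c) :
    act g κ (t • x) = t • act g κ x := by
  rw [act, act, ← ofMV_smul, mat_smul, vec_smul, Matrix.mul_smul, Matrix.smul_mul]
  congr 1
  funext i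
  rw [Matrix.smul_vecMul, Pi.smul_apply, Pi.smul_apply, mul_smul_comm]

/-- The action as a linear automorphism. -/
def actL (h2 : (2 : F) ≠ 0) (g : (Matrix (Fin 3) (Fin 3) (Qt a b))ˣ) (κ : (Qt a b)ˣ) :
    Alb a b c ≃ₗ[F] Alb a b c where
  toFun := act g κ
  invFun := act g⁻¹ (κ⁻¹ : (Qt a b)ˣ)
  map_add' := act_add g κ
  map_smul' := act_smul g κ
  left_inv x := by
    rw [act_act h2, inv_mul_cancel, Units.inv_mul, act_one_one h2]
  right_inv x := by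
    rw [act_act h2, mul_inv_cancel, Units.mul_inv, act_one_one h2]

theorem actL_apply (h2 : (2 : F) ≠ 0) (g : (Matrix (Fin 3) (Fin 3) (Qt a b))ˣ) (κ : (Qt a b)ˣ)
    (x : Alb a b c) : actL h2 g κ x = act g κ x := rfl

theorem q1_conjTranspose (κ : Qt a b) : (q1 κ)ᴴ = q1 (star κ) := rfl

theorem units_inv_mul (g : (Matrix (Fin 3) (Fin 3) (Qt a b))ˣ) :
    ((g⁻¹ : (Matrix (Fin 3) (Fin 3) (Qt a b))ˣ) : Matrix (Fin 3) (Fin 3) (Qt a b)) *
      (g : Matrix (Fin 3) (Fin 3) (Qt a b)) = 1 := Units.inv_mul g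

theorem units_mul_inv (g : (Matrix (Fin 3) (Fin 3) (Qt a b))ˣ) :
    (g : Matrix (Fin 3) (Fin 3) (Qt a b)) *
      ((g⁻¹ : (Matrix (Fin 3) (Fin 3) (Qt a b))ˣ) : Matrix (Fin 3) (Fin 3) (Qt a b)) = 1 :=
  Units.mul_inv g

theorem eq_q1 (h2 : (2 : F) ≠ 0) {T : Matrix (Fin 1) (Fin 1) (Qt a b)} (hT : T.IsHermitian) :
    T = q1 (((T 0 0).re : F) : Qt a b) := by
  have h : star (T 0 0) = T 0 0 := by
    conv_rhs => rw [← hT.eq]
    rfl
  apply Matrix.ext
  intro i j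
  fin_cases i
  fin_cases j
  exact eq_coe_of_star_eq h2 h

theorem cub_act (h2 : (2 : F) ≠ 0) (hQ : Aniso a b) (g : (Matrix (Fin 3) (Fin 3) (Qt a b))ˣ)
    {κ : Qt a b} (hκ : nrd κ = nu (g : Matrix (Fin 3) (Fin 3) (Qt a b))) (x : Alb a b c) :
    cub (act g κ x) = nu (g : Matrix (Fin 3) (Fin 3) (Qt a b)) * cub x := by
  rw [cub_eq, cub_eq, mat_act h2, row_vec_act, herN_mul h2 hQ _ _ (mat_isHermitian x)]
  set v := row (Alb.vec x)
  set S := mat x
  have e : q1 κ * (v * ((g⁻¹ : (Matrix (Fin 3) (Fin 3) (Qt a b))ˣ) :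
      Matrix (Fin 3) (Fin 3) (Qt a b))) * ((g : Matrix (Fin 3) (Fin 3) (Qt a b)) * S *
        (g : Matrix (Fin 3) (Fin 3) (Qt a b))ᴴ) * (q1 κ * (v *
        ((g⁻¹ : (Matrix (Fin 3) (Fin 3) (Qt a b))ˣ) : Matrix (Fin 3) (Fin 3) (Qt a b))))ᴴ =
      q1 κ * (v * S * vᴴ) * q1 (star κ) := by
    have e1 : (g : Matrix (Fin 3) (Fin 3) (Qt a b))ᴴ *
        ((g⁻¹ : (Matrix (Fin 3) (Fin 3) (Qt a b))ˣ) : Matrix (Fin 3) (Fin 3) (Qt a b))ᴴ = 1 := by
      rw [← conjTranspose_mul, units_inv_mul, conjTranspose_one]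
    rw [conjTranspose_mul, conjTranspose_mul, q1_conjTranspose]
    calc _ = q1 κ * (v * (((g⁻¹ : (Matrix (Fin 3) (Fin 3) (Qt a b))ˣ) :
          Matrix (Fin 3) (Fin 3) (Qt a b)) * (g : Matrix (Fin 3) (Fin 3) (Qt a b))) * S *
          ((g : Matrix (Fin 3) (Fin 3) (Qt a b))ᴴ *
        ((g⁻¹ : (Matrix (Fin 3) (Fin 3) (Qt a b))ˣ) : Matrix (Fin 3) (Fin 3) (Qt a b))ᴴ) * vᴴ) *
          q1 (star κ) := by simp only [Matrix.mul_assoc]
      _ = _ := by rw [e1, units_inv_mul, Matrix.mul_one, Matrix.mul_one]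
  rw [e]
  rw [eq_q1 h2 (conj_isHermitian (mat_isHermitian x) v), ← q1_mul, ← q1_mul]
  have e2 : κ * ((((v * S * vᴴ) 0 0).re : F) : Qt a b) * star κ =
      ((((v * S * vᴴ) 0 0).re * nrd κ : F) : Qt a b) := by
    rw [← QuaternionAlgebra.coe_commutes, mul_assoc, mul_star_qt, QuaternionAlgebra.coe_mul]
  rw [e2]
  simp only [q1, Matrix.of_apply, QuaternionAlgebra.re_coe]
  rw [hκ]
  ring

/-! ### The trace forms -/

theorem re_trace_comm (A B : Matrix (Fin 3) (Fin 3) (Qt a b)) :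
    (A * B).trace.re = (B * A).trace.re := by
  simp [Matrix.trace, Matrix.mul_apply, Fin.sum_univ_three]
  ring

/-- The scaled inverse of the diagonal matrix. -/
def dgi (a b : Fˣ) (g : Fin 3 → Fˣ) : Matrix (Fin 3) (Fin 3) (Qt a b) :=
  Matrix.diagonal fun i => algebraMap F (Qt a b) ((g i)⁻¹ : Fˣ)

theorem dg_mul_dgi (g : Fin 3 → Fˣ) : dg a b g * dgi a b g = 1 := by
  rw [dg, dgi, diagonal_mul_diagonal, ← diagonal_one]
  congr 1
  funext i
  rw [← map_mul, Units.mul_inv, map_one]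

theorem dgi_mul_dg (g : Fin 3 → Fˣ) : dgi a b g * dg a b g = 1 := by
  rw [dg, dgi, diagonal_mul_diagonal, ← diagonal_one]
  congr 1
  funext i
  rw [← map_mul, Units.inv_mul, map_one]

theorem trace_eq (g : Fin 3 → Fˣ) (x y : Alb a b c) :
    (mat x * dg a b g * mat y * dg a b g).trace.re =
      (g 0 : F) ^ 2 * x.d1 * y.d1 + (g 1 : F) ^ 2 * x.d2 * y.d2 + (g 2 : F) ^ 2 * x.d3 * y.d3 +
      2 * ((g 1 : F) * g 2 * (x.x1.fst * star y.x1.fst).re +
        (g 2 : F) * g 0 * (x.x2.fst * star y.x2.fst).re +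
        (g 0 : F) * g 1 * (x.x3.fst * star y.x3.fst).re) := by
  simp only [Matrix.trace, diag_apply, dg, Matrix.mul_apply, Fin.sum_univ_three]
  simp [mat]
  ring

theorem row_eq (g : Fin 3 → Fˣ) (v w : Fin 3 → Qt a b) :
    ((row v * dgi a b g * (row w)ᴴ) 0 0).re = ((g 0)⁻¹ : Fˣ) * (v 0 * star (w 0)).re +
      ((g 1)⁻¹ : Fˣ) * (v 1 * star (w 1)).re + ((g 2)⁻¹ : Fˣ) * (v 2 * star (w 2)).re := by
  simp only [Matrix.mul_apply, dgi, Fin.sum_univ_three, conjTranspose_apply, row, of_apply]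
  simp
  ring

theorem re_mul_star_eq (x y : Qt a b) : (x * star y).re =
    x.re * y.re - a * x.imI * y.imI - b * x.imJ * y.imJ + a * b * x.imK * y.imK := by
  simp
  ring

theorem tf_eq (g : Fin 3 → Fˣ) (x y : Alb a b c) : tf (wt g x) y =
    (mat x * dg a b g * mat y * dg a b g).trace.re -
      2 * c * (g 0 * g 1 * g 2) *
        ((row (Alb.vec x) * dgi a b g * (row (Alb.vec y))ᴴ) 0 0).re := by
  rw [trace_eq, row_eq]
  simp only [re_mul_star_eq, tf, wt, bil_eq, Alb.vec, Units.val_inv_eq_inv_val]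
  have h0 := (g 0).ne_zero
  have h1 := (g 1).ne_zero
  have h2 := (g 2).ne_zero
  simp
  field_simp
  ring

theorem dg_conjTranspose (g : Fin 3 → Fˣ) : (dg a b g)ᴴ = dg a b g := by
  rw [dg, diagonal_conjTranspose]
  congr 1
  funext i
  exact star_coe' _

theorem unitary_symm {g g' : Fin 3 → Fˣ} {m n : Matrix (Fin 3) (Fin 3) (Qt a b)}
    (h : nᴴ * dg a b g * m = dg a b g') : mᴴ * dg a b g * n = dg a b g' := by
  have h1 := congrArg conjTranspose h
  rwa [conjTranspose_mul, conjTranspose_mul, conjTranspose_conjTranspose, dg_conjTranspose,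
    dg_conjTranspose, ← Matrix.mul_assoc] at h1

theorem unitary_inv {g g' : Fin 3 → Fˣ} {m n : (Matrix (Fin 3) (Fin 3) (Qt a b))ˣ}
    (h : (n : Matrix (Fin 3) (Fin 3) (Qt a b))ᴴ * dg a b g * (m : Matrix (Fin 3) (Fin 3) (Qt a b)) =
      dg a b g') :
    ((m⁻¹ : (Matrix (Fin 3) (Fin 3) (Qt a b))ˣ) : Matrix (Fin 3) (Fin 3) (Qt a b)) *
      dgi a b g * ((n⁻¹ : (Matrix (Fin 3) (Fin 3) (Qt a b))ˣ) : Matrix (Fin 3) (Fin 3) (Qt a b))ᴴ =
      dgi a b g' := by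
  have e1 : ((n⁻¹ : (Matrix (Fin 3) (Fin 3) (Qt a b))ˣ) : Matrix (Fin 3) (Fin 3) (Qt a b))ᴴ *
      (n : Matrix (Fin 3) (Fin 3) (Qt a b))ᴴ = 1 := by
    rw [← conjTranspose_mul, units_mul_inv, conjTranspose_one]
  have e2 : ((m⁻¹ : (Matrix (Fin 3) (Fin 3) (Qt a b))ˣ) : Matrix (Fin 3) (Fin 3) (Qt a b)) *
      dgi a b g * ((n⁻¹ : (Matrix (Fin 3) (Fin 3) (Qt a b))ˣ) : Matrix (Fin 3) (Fin 3) (Qt a b))ᴴ *
      dg a b g' = 1 := by
    rw [← h]
    calc _ = ((m⁻¹ : (Matrix (Fin 3) (Fin 3) (Qt a b))ˣ) : Matrix (Fin 3) (Fin 3) (Qt a b)) *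
          (dgi a b g * ((((n⁻¹ : (Matrix (Fin 3) (Fin 3) (Qt a b))ˣ) :
          Matrix (Fin 3) (Fin 3) (Qt a b))ᴴ * (n : Matrix (Fin 3) (Fin 3) (Qt a b))ᴴ) *
          dg a b g)) * (m : Matrix (Fin 3) (Fin 3) (Qt a b)) := by simp only [Matrix.mul_assoc]
      _ = 1 := by rw [e1, Matrix.one_mul, dgi_mul_dg, Matrix.mul_one, units_inv_mul]
  calc _ = ((m⁻¹ : (Matrix (Fin 3) (Fin 3) (Qt a b))ˣ) : Matrix (Fin 3) (Fin 3) (Qt a b)) *
      dgi a b g * ((n⁻¹ : (Matrix (Fin 3) (Fin 3) (Qt a b))ˣ) : Matrix (Fin 3) (Fin 3) (Qt a b))ᴴ *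
      (dg a b g' * dgi a b g') := by rw [dg_mul_dgi, Matrix.mul_one]
    _ = dgi a b g' := by rw [← Matrix.mul_assoc, e2, Matrix.one_mul]

theorem tf_act (h2 : (2 : F) ≠ 0) {g g' : Fin 3 → Fˣ} {m n : (Matrix (Fin 3) (Fin 3) (Qt a b))ˣ}
    (h : (n : Matrix (Fin 3) (Fin 3) (Qt a b))ᴴ * dg a b g * (m : Matrix (Fin 3) (Fin 3) (Qt a b)) =
      dg a b g') {κ κ' : Qt a b} {r : F} (hκ : star κ' * κ = (r : Qt a b))
    (hr : (g 0 * g 1 * g 2 : F) * r = g' 0 * g' 1 * g' 2) (x y : Alb a b c) :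
    tf (wt g (act m κ x)) (act n κ' y) = tf (wt g' x) y := by
  have e1 : ((m : Matrix (Fin 3) (Fin 3) (Qt a b)) * mat x *
      (m : Matrix (Fin 3) (Fin 3) (Qt a b))ᴴ * dg a b g *
      ((n : Matrix (Fin 3) (Fin 3) (Qt a b)) * mat y * (n : Matrix (Fin 3) (Fin 3) (Qt a b))ᴴ) *
      dg a b g).trace.re = (mat x * dg a b g' * mat y * dg a b g').trace.re := by
    calc _ = ((m : Matrix (Fin 3) (Fin 3) (Qt a b)) * (mat x *
          ((m : Matrix (Fin 3) (Fin 3) (Qt a b))ᴴ * dg a b g *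
          (n : Matrix (Fin 3) (Fin 3) (Qt a b))) * mat y *
          (n : Matrix (Fin 3) (Fin 3) (Qt a b))ᴴ * dg a b g)).trace.re := by
            simp only [Matrix.mul_assoc]
      _ = ((mat x * ((m : Matrix (Fin 3) (Fin 3) (Qt a b))ᴴ * dg a b g *
          (n : Matrix (Fin 3) (Fin 3) (Qt a b))) * mat y *
          (n : Matrix (Fin 3) (Fin 3) (Qt a b))ᴴ * dg a b g) *
          (m : Matrix (Fin 3) (Fin 3) (Qt a b))).trace.re := re_trace_comm _ _
      _ = (mat x * ((m : Matrix (Fin 3) (Fin 3) (Qt a b))ᴴ * dg a b g *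
          (n : Matrix (Fin 3) (Fin 3) (Qt a b))) * mat y *
          ((n : Matrix (Fin 3) (Fin 3) (Qt a b))ᴴ * dg a b g *
          (m : Matrix (Fin 3) (Fin 3) (Qt a b)))).trace.re := by
            simp only [Matrix.mul_assoc]
      _ = _ := by rw [h, unitary_symm h]
  have e2 : q1 κ * (row (Alb.vec x) * ((m⁻¹ : (Matrix (Fin 3) (Fin 3) (Qt a b))ˣ) :
      Matrix (Fin 3) (Fin 3) (Qt a b))) * dgi a b g * (q1 κ' * (row (Alb.vec y) *
      ((n⁻¹ : (Matrix (Fin 3) (Fin 3) (Qt a b))ˣ) : Matrix (Fin 3) (Fin 3) (Qt a b))))ᴴ =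
      q1 κ * (row (Alb.vec x) * dgi a b g' * (row (Alb.vec y))ᴴ) * q1 (star κ') := by
    rw [conjTranspose_mul, conjTranspose_mul, q1_conjTranspose]
    calc _ = q1 κ * (row (Alb.vec x) * (((m⁻¹ : (Matrix (Fin 3) (Fin 3) (Qt a b))ˣ) :
      Matrix (Fin 3) (Fin 3) (Qt a b)) * dgi a b g *
      ((n⁻¹ : (Matrix (Fin 3) (Fin 3) (Qt a b))ˣ) : Matrix (Fin 3) (Fin 3) (Qt a b))ᴴ) *
      (row (Alb.vec y))ᴴ) * q1 (star κ') := by simp only [Matrix.mul_assoc]
      _ = _ := by rw [unitary_inv h]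
  have e3 : ∀ T : Matrix (Fin 1) (Fin 1) (Qt a b), ((q1 κ * T * q1 (star κ')) 0 0).re =
      r * (T 0 0).re := by
    intro T
    have e4 : (q1 κ * T * q1 (star κ')) 0 0 = κ * T 0 0 * star κ' := by
      simp [Matrix.mul_apply, q1]
    have e5 : (κ * T 0 0 * star κ').re = ((star κ' * κ) * T 0 0).re := by
      simp
      ring
    rw [e4, e5, hκ]
    simp
  rw [tf_eq, tf_eq, mat_act h2, mat_act h2, row_vec_act, row_vec_act, e1, e2, e3]
  rw [← hr]
  ring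

theorem act_one (h2 : (2 : F) ≠ 0) {g g' : Fin 3 → Fˣ} {m : (Matrix (Fin 3) (Fin 3) (Qt a b))ˣ}
    (h : (m : Matrix (Fin 3) (Fin 3) (Qt a b))ᴴ * dg a b g * (m : Matrix (Fin 3) (Fin 3) (Qt a b)) =
      dg a b g') (κ : Qt a b) : act m κ (Alb.one a b c g') = Alb.one a b c g := by
  have e1 : mat (Alb.one a b c g) = dgi a b g := by
    apply Matrix.ext
    intro i j
    fin_cases i <;> fin_cases j <;> simp [mat, Alb.one, dgi]
  have e1' : mat (Alb.one a b c g') = dgi a b g' := by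
    apply Matrix.ext
    intro i j
    fin_cases i <;> fin_cases j <;> simp [mat, Alb.one, dgi]
  have e0 : ∀ g : Fin 3 → Fˣ, row (Alb.vec (Alb.one a b c g)) = 0 := by
    intro g
    apply Matrix.ext
    intro i j
    fin_cases j <;> simp [row, Alb.one, Alb.vec]
  apply ext_mat_vec
  · rw [mat_act h2, e1, e1', ← unitary_inv h]
    have e2 : (m : Matrix (Fin 3) (Fin 3) (Qt a b))ᴴ *
        ((m⁻¹ : (Matrix (Fin 3) (Fin 3) (Qt a b))ˣ) : Matrix (Fin 3) (Fin 3) (Qt a b))ᴴ = 1 := by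
      rw [← conjTranspose_mul, units_inv_mul, conjTranspose_one]
    have e3 : ((m⁻¹ : (Matrix (Fin 3) (Fin 3) (Qt a b))ˣ) : Matrix (Fin 3) (Fin 3) (Qt a b))ᴴ *
        (m : Matrix (Fin 3) (Fin 3) (Qt a b))ᴴ = 1 := by
      rw [← conjTranspose_mul, units_mul_inv, conjTranspose_one]
    calc _ = ((m : Matrix (Fin 3) (Fin 3) (Qt a b)) *
        ((m⁻¹ : (Matrix (Fin 3) (Fin 3) (Qt a b))ˣ) : Matrix (Fin 3) (Fin 3) (Qt a b))) *
        dgi a b g * (((m⁻¹ : (Matrix (Fin 3) (Fin 3) (Qt a b))ˣ) :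
        Matrix (Fin 3) (Fin 3) (Qt a b))ᴴ * (m : Matrix (Fin 3) (Fin 3) (Qt a b))ᴴ) := by
          simp only [Matrix.mul_assoc]
      _ = _ := by rw [units_mul_inv, e3, Matrix.one_mul, Matrix.mul_one]
  · rw [row_vec_act, e0, e0, Matrix.zero_mul, Matrix.mul_zero]

end act

section ext

variable {k K : Type} [Field k] [Field K] [Algebra k K] {a b c : kˣ}

/-- The automorphism on the coefficients of quaternions, as a ring homomorphism. -/
def qmapH (σ : K ≃ₐ[k] K) (a b : kˣ) : Qt (up K a) (up K b) →+* Qt (up K a) (up K b) where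
  toFun := qmap σ
  map_one' := qmap_one σ
  map_mul' := qmap_mul σ
  map_zero' := qmap_zero σ
  map_add' := qmap_add σ

/-- The automorphism on the coefficients of invertible matrices. -/
def umap (σ : K ≃ₐ[k] K) {a b : kˣ} :
    (Matrix (Fin 3) (Fin 3) (Qt (up K a) (up K b)))ˣ →*
      (Matrix (Fin 3) (Fin 3) (Qt (up K a) (up K b)))ˣ :=
  Units.map ((qmapH σ a b).mapMatrix (m := Fin 3)).toMonoidHom

theorem umap_val (σ : K ≃ₐ[k] K) (m : (Matrix (Fin 3) (Fin 3) (Qt (up K a) (up K b)))ˣ) :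
    (umap σ m : Matrix (Fin 3) (Fin 3) (Qt (up K a) (up K b))) =
      (m : Matrix (Fin 3) (Fin 3) (Qt (up K a) (up K b))).map (qmap σ) := rfl

theorem map_mul_qmap (σ : K ≃ₐ[k] K) {l m n : Type} [Fintype m]
    (A : Matrix l m (Qt (up K a) (up K b))) (B : Matrix m n (Qt (up K a) (up K b))) :
    (A * B).map (qmap σ) = A.map (qmap σ) * B.map (qmap σ) :=
  Matrix.map_mul (f := qmapH σ a b)

theorem map_qmap_conjTranspose (σ : K ≃ₐ[k] K) {l m : Type}
    (A : Matrix l m (Qt (up K a) (up K b))) :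
    Aᴴ.map (qmap σ) = (A.map (qmap σ))ᴴ := by
  apply Matrix.ext
  intro i j
  exact qmap_star σ _

theorem qmap_coe (σ : K ≃ₐ[k] K) (t : K) :
    qmap σ (t : Qt (up K a) (up K b)) = ((σ t : K) : Qt (up K a) (up K b)) :=
  QuaternionAlgebra.ext rfl (map_zero σ) (map_zero σ) (map_zero σ)

theorem mat_amap (σ : K ≃ₐ[k] K) (x : AlbL K a b c) : mat (amap σ x) = (mat x).map (qmap σ) := by
  apply Matrix.ext
  intro i j
  fin_cases i <;> fin_cases j <;> simp [mat, amap, omap, qmap_star] <;>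
    exact (qmap_coe σ _).symm

theorem vec_amap (σ : K ≃ₐ[k] K) (x : AlbL K a b c) (i : Fin 3) :
    Alb.vec (amap σ x) i = qmap σ (Alb.vec x i) := by
  fin_cases i <;> rfl

theorem row_vec_amap (σ : K ≃ₐ[k] K) (x : AlbL K a b c) :
    row (Alb.vec (amap σ x)) = (row (Alb.vec x)).map (qmap σ) := by
  apply Matrix.ext
  intro i j
  exact vec_amap σ x j

theorem q1_map (σ : K ≃ₐ[k] K) (κ : Qt (up K a) (up K b)) :
    (q1 κ).map (qmap σ) = q1 (qmap σ κ) := rfl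

theorem amap_act (h2 : (2 : K) ≠ 0) (σ : K ≃ₐ[k] K)
    (m : (Matrix (Fin 3) (Fin 3) (Qt (up K a) (up K b)))ˣ) (κ : Qt (up K a) (up K b))
    (x : AlbL K a b c) : amap σ (act m κ x) = act (umap σ m) (qmap σ κ) (amap σ x) := by
  apply ext_mat_vec
  · rw [mat_act h2, mat_amap, mat_amap, mat_act h2, map_mul_qmap, map_mul_qmap, umap_val,
      map_qmap_conjTranspose]
  · rw [row_vec_act, row_vec_amap, row_vec_act, map_mul_qmap, map_mul_qmap, q1_map,
      row_vec_amap, ← map_inv, umap_val]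

theorem herm_act (h2 : (2 : K) ≠ 0) (σ : K ≃ₐ[k] K) {g g' : Fin 3 → kˣ}
    {m : (Matrix (Fin 3) (Fin 3) (Qt (up K a) (up K b)))ˣ}
    (h : IsU σ g g' (m : Matrix (Fin 3) (Fin 3) (Qt (up K a) (up K b))))
    {κ : Qt (up K a) (up K b)} {r : K} (hκ : star (qmap σ κ) * κ = (r : Qt (up K a) (up K b)))
    (hr : (upG K g 0 * upG K g 1 * upG K g 2 : K) * r = upG K g' 0 * upG K g' 1 * upG K g' 2)
    (x y : AlbL K a b c) : herm σ g (act m κ x) (act m κ y) = herm σ g' x y := by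
  rw [herm, herm, amap_act h2]
  exact tf_act h2 (m := m) (n := umap σ m) h hκ hr x (amap σ y)

theorem isU_one (σ : K ≃ₐ[k] K) (g : Fin 3 → kˣ) :
    IsU σ g g (1 : Matrix (Fin 3) (Fin 3) (Qt (up K a) (up K b))) := by
  have h : (1 : Matrix (Fin 3) (Fin 3) (Qt (up K a) (up K b))).map (qmap σ) = 1 :=
    (qmapH σ a b).mapMatrix.map_one
  rw [IsU, h, conjTranspose_one, Matrix.one_mul, Matrix.mul_one]

theorem isU_mul {σ : K ≃ₐ[k] K} {g g' g'' : Fin 3 → kˣ}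
    {m n : Matrix (Fin 3) (Fin 3) (Qt (up K a) (up K b))} (hm : IsU σ g g' m)
    (hn : IsU σ g' g'' n) : IsU σ g g'' (m * n) := by
  rw [IsU] at *
  rw [map_mul_qmap, conjTranspose_mul, ← hn, ← hm]
  simp only [Matrix.mul_assoc]

theorem isU_inv {σ : K ≃ₐ[k] K} {g g' : Fin 3 → kˣ}
    {m : (Matrix (Fin 3) (Fin 3) (Qt (up K a) (up K b)))ˣ}
    (hm : IsU σ g g' (m : Matrix (Fin 3) (Fin 3) (Qt (up K a) (up K b)))) :
    IsU σ g' g ((m⁻¹ : (Matrix (Fin 3) (Fin 3) (Qt (up K a) (up K b)))ˣ) :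
      Matrix (Fin 3) (Fin 3) (Qt (up K a) (up K b))) := by
  rw [IsU] at *
  rw [← hm]
  have e : (((m⁻¹ : (Matrix (Fin 3) (Fin 3) (Qt (up K a) (up K b)))ˣ) :
      Matrix (Fin 3) (Fin 3) (Qt (up K a) (up K b))).map (qmap σ))ᴴ *
      ((m : Matrix (Fin 3) (Fin 3) (Qt (up K a) (up K b))).map (qmap σ))ᴴ = 1 := by
    rw [← conjTranspose_mul, ← map_mul_qmap, units_mul_inv]
    have h : (1 : Matrix (Fin 3) (Fin 3) (Qt (up K a) (up K b))).map (qmap σ) = 1 :=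
      (qmapH σ a b).mapMatrix.map_one
    rw [h, conjTranspose_one]
  calc _ = ((((m⁻¹ : (Matrix (Fin 3) (Fin 3) (Qt (up K a) (up K b)))ˣ) :
      Matrix (Fin 3) (Fin 3) (Qt (up K a) (up K b))).map (qmap σ))ᴴ *
      ((m : Matrix (Fin 3) (Fin 3) (Qt (up K a) (up K b))).map (qmap σ))ᴴ) *
      dg (up K a) (up K b) (upG K g) *
      ((m : Matrix (Fin 3) (Fin 3) (Qt (up K a) (up K b))) *
      ((m⁻¹ : (Matrix (Fin 3) (Fin 3) (Qt (up K a) (up K b)))ˣ) :
        Matrix (Fin 3) (Fin 3) (Qt (up K a) (up K b)))) := by simp only [Matrix.mul_assoc]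
    _ = _ := by rw [e, units_mul_inv, Matrix.one_mul, Matrix.mul_one]

theorem nu_inv (h2 : (2 : K) ≠ 0) (hQ : Aniso (up K a) (up K b))
    {m : (Matrix (Fin 3) (Fin 3) (Qt (up K a) (up K b)))ˣ}
    (hm : nu (m : Matrix (Fin 3) (Fin 3) (Qt (up K a) (up K b))) = 1) :
    nu ((m⁻¹ : (Matrix (Fin 3) (Fin 3) (Qt (up K a) (up K b)))ˣ) :
      Matrix (Fin 3) (Fin 3) (Qt (up K a) (up K b))) = 1 := by
  have h := nu_mul h2 hQ ((m⁻¹ : (Matrix (Fin 3) (Fin 3) (Qt (up K a) (up K b)))ˣ) :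
      Matrix (Fin 3) (Fin 3) (Qt (up K a) (up K b))) m
  rw [units_inv_mul, nu_one, hm, mul_one] at h
  exact h.symm

/-- The special unitary group of degree three over the quaternion algebra. -/
def SUQ (σ : K ≃ₐ[k] K) (a b : kˣ) (g : Fin 3 → kˣ) (h2 : (2 : K) ≠ 0)
    (hQ : Aniso (up K a) (up K b)) : Subgroup (Matrix (Fin 3) (Fin 3) (Qt (up K a) (up K b)))ˣ where
  carrier := {m | IsU σ g g (m : Matrix (Fin 3) (Fin 3) (Qt (up K a) (up K b))) ∧
    nu (m : Matrix (Fin 3) (Fin 3) (Qt (up K a) (up K b))) = 1}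
  mul_mem' := by
    rintro m n ⟨h1, h3⟩ ⟨h4, h5⟩
    refine ⟨isU_mul h1 h4, ?_⟩
    rw [Units.val_mul, nu_mul h2 hQ, h3, h5, mul_one]
  one_mem' := ⟨isU_one σ g, nu_one⟩
  inv_mem' := by
    rintro m ⟨h1, h3⟩
    exact ⟨isU_inv h1, nu_inv h2 hQ h3⟩

theorem act_mem_GE (h2 : (2 : K) ≠ 0) (hQ : Aniso (up K a) (up K b)) {σ : K ≃ₐ[k] K}
    {g : Fin 3 → kˣ} {m : (Matrix (Fin 3) (Fin 3) (Qt (up K a) (up K b)))ˣ}
    (hm : IsU σ g g (m : Matrix (Fin 3) (Fin 3) (Qt (up K a) (up K b))))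
    (hn : nu (m : Matrix (Fin 3) (Fin 3) (Qt (up K a) (up K b))) = 1) :
    (actL h2 m 1 : AlbL K a b c ≃ₗ[K] AlbL K a b c) ∈ GE σ a b c g := by
  refine ⟨fun x => ?_, fun x y => ?_⟩
  · rw [actL_apply, Units.val_one, cub_act h2 hQ m (by rw [hn]; exact nrd_one), hn, one_mul]
  · rw [actL_apply, actL_apply, Units.val_one]
    exact herm_act h2 σ hm (r := 1) (by rw [qmap_one, star_one, mul_one]; rfl) (mul_one _) x y

/-- The homomorphism from the special unitary group of degree three. -/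
def toGE (σ : K ≃ₐ[k] K) (a b c : kˣ) (g : Fin 3 → kˣ) (h2 : (2 : K) ≠ 0)
    (hQ : Aniso (up K a) (up K b)) : SUQ σ a b g h2 hQ →* GE σ a b c g where
  toFun m := ⟨actL h2 m.1 1, act_mem_GE h2 hQ m.2.1 m.2.2⟩
  map_one' := by
    apply Subtype.ext
    apply LinearEquiv.ext
    intro x
    exact act_one_one h2 x
  map_mul' m n := by
    apply Subtype.ext
    apply LinearEquiv.ext
    intro x
    change act (m.1 * n.1) 1 x = act m.1 1 (act n.1 1 x)
    rw [act_act h2, mul_one]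

theorem toGE_apply (σ : K ≃ₐ[k] K) (g : Fin 3 → kˣ) (h2 : (2 : K) ≠ 0)
    (hQ : Aniso (up K a) (up K b)) (m : SUQ σ a b g h2 hQ) (x : AlbL K a b c) :
    (toGE σ a b c g h2 hQ m).1 x = act m.1 1 x := rfl

theorem nu_ne_zero (h2 : (2 : K) ≠ 0) (hQ : Aniso (up K a) (up K b))
    (m : (Matrix (Fin 3) (Fin 3) (Qt (up K a) (up K b)))ˣ) :
    nu (m : Matrix (Fin 3) (Fin 3) (Qt (up K a) (up K b))) ≠ 0 := by
  intro h0
  have h := nu_mul h2 hQ ((m⁻¹ : (Matrix (Fin 3) (Fin 3) (Qt (up K a) (up K b)))ˣ) :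
      Matrix (Fin 3) (Fin 3) (Qt (up K a) (up K b))) m
  rw [units_inv_mul, nu_one, h0, mul_zero] at h
  exact one_ne_zero h

theorem cub_one_eq (g : Fin 3 → Kˣ) {a b c : Kˣ} :
    cub (Alb.one a b c g) = (g 0 * g 1 * g 2 : K)⁻¹ := by
  simp [cub, Alb.one, Oct.norm, nrd, bil_eq]
  ring

theorem isCoord_act' (h2 : (2 : K) ≠ 0) (hQ : Aniso (up K a) (up K b)) {σ : K ≃ₐ[k] K}
    {g g' : Fin 3 → kˣ} {m : (Matrix (Fin 3) (Fin 3) (Qt (up K a) (up K b)))ˣ}
    {κ : Qt (up K a) (up K b)}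
    (hm : IsU σ g g' (m : Matrix (Fin 3) (Fin 3) (Qt (up K a) (up K b))))
    (hmσ : (m : Matrix (Fin 3) (Fin 3) (Qt (up K a) (up K b))).map (qmap σ) = m)
    (hκσ : qmap σ κ = κ)
    (hκ : nrd κ = nu (m : Matrix (Fin 3) (Fin 3) (Qt (up K a) (up K b))))
    (Ψ : AlbL K a b c ≃ₗ[K] AlbL K a b c) (h : ∀ x, Ψ x = act m κ x) : IsCoord σ g g' Ψ := by
  have hu : umap σ m = m := Units.ext hmσ
  have hm' : (m : Matrix (Fin 3) (Fin 3) (Qt (up K a) (up K b)))ᴴ *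
      dg (up K a) (up K b) (upG K g) * (m : Matrix (Fin 3) (Fin 3) (Qt (up K a) (up K b))) =
      dg (up K a) (up K b) (upG K g') := by
    have h3 := hm
    rw [IsU, hmσ] at h3
    exact h3
  have h1 : act m κ (Alb.one _ _ (up K c) (upG K g')) = Alb.one _ _ _ (upG K g) :=
    act_one h2 hm' κ
  refine ⟨⟨_, nu_ne_zero h2 hQ m, fun x => ?_⟩, fun x y => ?_, fun x => ?_, ?_⟩
  · rw [h, cub_act h2 hQ m hκ]
  · rw [h, h]
    have h3 := cub_act h2 hQ m hκ (Alb.one _ _ (up K c) (upG K g'))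
    rw [h1, cub_one_eq, cub_one_eq] at h3
    refine herm_act h2 σ hm (r := nrd κ) ?_ ?_ x y
    · rw [hκσ, star_mul_qt]
    · rw [hκ]
      have e0 : (upG K g 0 * upG K g 1 * upG K g 2 : K) ≠ 0 :=
        mul_ne_zero (mul_ne_zero (Units.ne_zero _) (Units.ne_zero _)) (Units.ne_zero _)
      have e1 : (upG K g' 0 * upG K g' 1 * upG K g' 2 : K) ≠ 0 :=
        mul_ne_zero (mul_ne_zero (Units.ne_zero _) (Units.ne_zero _)) (Units.ne_zero _)
      field_simp at h3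
      exact h3.symm
  · rw [h, h, amap_act h2, hu, hκσ]
  · rw [h]
    exact h1

end ext

end Vale.Agent.P011.E6.H64
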