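import Vale.Agent.P011.E6.H64.Ind
import Vale.Agent.P011.D4.Oct
import Vale.Agent.P011S.Defs

/-!
The cubic norm of quaternionic hermitian matrices of size three, and its behaviour under
congruence.
-/

open Matrix

namespace Vale.Agent.P011.E6.H64

open Vale.Agent.P011.MPQ

section her

variable {F : Type} [Field F] {a b : Fˣ}

/-- The cubic norm of a hermitian matrix. -/
def herN (T : Matrix (Fin 3) (Fin 3) (Qt a b)) : F :=
  (T 0 0).re * (T 1 1).re * (T 2 2).re - (T 0 0).re * nrd (T 1 2) - (T 1 1).re * nrd (T 2 0)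
    - (T 2 2).re * nrd (T 0 1) + 2 * (T 0 1 * T 1 2 * T 2 0).re

/-- The hermitian matrix with given components. -/
def her (d1 d2 d3 : F) (p1 p2 p3 : Qt a b) : Matrix (Fin 3) (Fin 3) (Qt a b) :=
  !![(d1 : Qt a b), p3, star p2; star p3, (d2 : Qt a b), p1; p2, star p1, (d3 : Qt a b)]

theorem star_coe' (t : F) : star (t : Qt a b) = (t : Qt a b) := by
  ext <;> simp

theorem her_isHermitian (d1 d2 d3 : F) (p1 p2 p3 : Qt a b) :
    (her d1 d2 d3 p1 p2 p3).IsHermitian := by
  ext i j : 1
  fin_cases i <;> fin_cases j <;> simp [her]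

theorem eq_coe_of_star_eq (h2 : (2 : F) ≠ 0) {x : Qt a b} (hx : star x = x) :
    x = (x.re : Qt a b) := by
  have e : ∀ t : F, -t = t → t = 0 := by
    intro t ht
    have h3 : 2 * t = 0 := by linear_combination -ht
    exact (mul_eq_zero.1 h3).resolve_left h2
  ext
  · simp
  · have := congrArg QuaternionAlgebra.imI hx
    simp only [QuaternionAlgebra.imI_star] at this
    simpa using e _ this
  · have := congrArg QuaternionAlgebra.imJ hx
    simp only [QuaternionAlgebra.imJ_star] at this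
    simpa using e _ this
  · have := congrArg QuaternionAlgebra.imK hx
    simp only [QuaternionAlgebra.imK_star] at this
    simpa using e _ this

theorem eq_her (h2 : (2 : F) ≠ 0) {S : Matrix (Fin 3) (Fin 3) (Qt a b)} (hS : S.IsHermitian) :
    S = her (S 0 0).re (S 1 1).re (S 2 2).re (S 1 2) (S 2 0) (S 0 1) := by
  have h : ∀ i j, star (S i j) = S j i := fun i j => by
    conv_rhs => rw [← hS.eq]
    rfl
  ext i j : 1
  fin_cases i <;> fin_cases j
  · exact eq_coe_of_star_eq h2 (h 0 0)
  · rfl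
  · exact (h 2 0).symm
  · exact (h 0 1).symm
  · exact eq_coe_of_star_eq h2 (h 1 1)
  · rfl
  · rfl
  · exact (h 1 2).symm
  · exact eq_coe_of_star_eq h2 (h 2 2)

theorem conj_apply {D : Type} [Ring D] [StarRing D] (i j : Fin 3) (q : D)
    (S : Matrix (Fin 3) (Fin 3) D) (r c : Fin 3) :
    ((1 + single i j q) * S * (1 + single i j q)ᴴ : Matrix (Fin 3) (Fin 3) D) r c =
      (S r c + if r = i then q * S j c else 0) +
        if c = i then (S r j + if r = i then q * S j j else 0) * star q else 0 := by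
  have h : (1 + single i j q)ᴴ = (1 : Matrix (Fin 3) (Fin 3) D) + single j i (star q) := by
    rw [conjTranspose_add, conjTranspose_one, conjTranspose_single]
  rw [h, mul_one_add_single, one_add_single_mul, one_add_single_mul]

theorem herN_her (d1 d2 d3 : F) (p1 p2 p3 : Qt a b) :
    herN (her d1 d2 d3 p1 p2 p3) = d1 * d2 * d3 - d1 * nrd p1 - d2 * nrd p2 - d3 * nrd p3 +
      2 * (p3 * p1 * p2).re := by
  simp [herN, her]

theorem herN_single {i j : Fin 3} (hij : i ≠ j) (q : Qt a b) (d1 d2 d3 : F)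
    (p1 p2 p3 : Qt a b) :
    herN ((1 + single i j q) * her d1 d2 d3 p1 p2 p3 * (1 + single i j q)ᴴ) =
      herN (her d1 d2 d3 p1 p2 p3) := by
  simp only [herN, conj_apply]
  fin_cases i <;> fin_cases j <;> simp only [ne_eq, not_true_eq_false] at hij
  all_goals
    simp [her, nrd]
    ring

theorem herN_single_diag (i : Fin 3) (q : Qt a b) (d1 d2 d3 : F) (p1 p2 p3 : Qt a b) :
    herN ((1 + single i i q) * her d1 d2 d3 p1 p2 p3 * (1 + single i i q)ᴴ) =
      nrd (1 + q) * herN (her d1 d2 d3 p1 p2 p3) := by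
  simp only [herN, conj_apply]
  fin_cases i
  all_goals
    simp [her, nrd]
    ring

end her

section norm

variable {F F' : Type} [Field F] [Field F'] [Algebra F F'] {a b : Fˣ}

/-- The entrywise image of a quaternionic matrix under a homomorphism to the algebra of matrices
of size two. -/
def spl2 (f : Qt a b →ₐ[F] Matrix (Fin 2) (Fin 2) F') {μ ν : Type} (x : Matrix μ ν (Qt a b)) :
    Matrix (μ × Fin 2) (ν × Fin 2) F' :=
  Matrix.of fun a b => f (x a.1 b.1) a.2 b.2

variable (f : Qt a b →ₐ[F] Matrix (Fin 2) (Fin 2) F')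

theorem spl2_mul {μ ν κ : Type} [Fintype ν] (x : Matrix μ ν (Qt a b)) (y : Matrix ν κ (Qt a b)) :
    spl2 f (x * y) = spl2 f x * spl2 f y := by
  ext ⟨i, r⟩ ⟨j, s⟩
  simp only [spl2, Matrix.of_apply, Matrix.mul_apply, map_sum, Matrix.sum_apply, map_mul,
    Fintype.sum_prod_type]

theorem spl2_add {μ ν : Type} (x y : Matrix μ ν (Qt a b)) :
    spl2 f (x + y) = spl2 f x + spl2 f y := by
  ext ⟨i, r⟩ ⟨j, s⟩
  simp [spl2]

theorem spl2_one {μ : Type} [DecidableEq μ] : spl2 f (1 : Matrix μ μ (Qt a b)) = 1 := by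
  ext ⟨i, r⟩ ⟨j, s⟩
  by_cases h : i = j
  · subst h
    by_cases h2 : r = s
    · subst h2; simp only [spl2, of_apply, one_apply_eq, map_one]
    · simp [spl2, h2]
  · simp only [spl2, of_apply, ne_eq, h, not_false_eq_true, one_apply_ne, map_zero,
      Matrix.zero_apply, Prod.mk.injEq, false_and]

/-- The reduced norm of a quaternionic matrix. -/
noncomputable def rN {μ : Type} [Fintype μ] [DecidableEq μ] (x : Matrix μ μ (Qt a b)) : F' :=
  (spl2 f x).det

theorem rN_mul {μ : Type} [Fintype μ] [DecidableEq μ] (x y : Matrix μ μ (Qt a b)) :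
    rN f (x * y) = rN f x * rN f y := by
  rw [rN, spl2_mul, Matrix.det_mul, rN, rN]

theorem rN_one {μ : Type} [Fintype μ] [DecidableEq μ] : rN f (1 : Matrix μ μ (Qt a b)) = 1 := by
  rw [rN, spl2_one, Matrix.det_one]

theorem rN_one_add_mul_comm {μ ν : Type} [Fintype μ] [DecidableEq μ] [Fintype ν] [DecidableEq ν]
    (x : Matrix μ ν (Qt a b)) (y : Matrix ν μ (Qt a b)) :
    rN f (1 + x * y) = rN f (1 + y * x) := by
  rw [rN, rN, spl2_add, spl2_add, spl2_one, spl2_one, spl2_mul, spl2_mul,
    Matrix.det_one_add_mul_comm]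

theorem rN_fin_one (x : Matrix (Fin 1) (Fin 1) (Qt a b)) : rN f x = (f (x 0 0)).det := by
  rw [rN, ← Matrix.det_submatrix_equiv_self (Equiv.uniqueProd (Fin 2) (Fin 1)).symm]
  congr 1

theorem rN_single (i j : Fin 3) (q : Qt a b) :
    rN f (1 + single i j q) = if i = j then (f (1 + q)).det else 1 := by
  have h : (single i j q : Matrix (Fin 3) (Fin 3) (Qt a b)) =
      (single i 0 q : Matrix (Fin 3) (Fin 1) (Qt a b)) *
        (single 0 j 1 : Matrix (Fin 1) (Fin 3) (Qt a b)) := by
    rw [single_mul_single_same, mul_one]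
  rw [h, rN_one_add_mul_comm, rN_fin_one]
  by_cases hij : i = j
  · subst hij
    rw [if_pos rfl, single_mul_single_same]
    simp
  · rw [if_neg hij, single_mul_single_of_ne]
    · simp
    · exact fun e => hij e.symm

theorem mul_star_qt (x : Qt a b) : x * star x = ((nrd x : F) : Qt a b) := by
  apply QuaternionAlgebra.ext <;>
    simp only [QuaternionAlgebra.re_mul, QuaternionAlgebra.imI_mul, QuaternionAlgebra.imJ_mul,
      QuaternionAlgebra.imK_mul, QuaternionAlgebra.re_star, QuaternionAlgebra.imI_star,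
      QuaternionAlgebra.imJ_star, QuaternionAlgebra.imK_star, QuaternionAlgebra.re_coe,
      QuaternionAlgebra.imI_coe, QuaternionAlgebra.imJ_coe, QuaternionAlgebra.imK_coe, nrd] <;>
    ring

theorem star_mul_qt (x : Qt a b) : star x * x = ((nrd x : F) : Qt a b) := by
  apply QuaternionAlgebra.ext <;>
    simp only [QuaternionAlgebra.re_mul, QuaternionAlgebra.imI_mul, QuaternionAlgebra.imJ_mul,
      QuaternionAlgebra.imK_mul, QuaternionAlgebra.re_star, QuaternionAlgebra.imI_star,
      QuaternionAlgebra.imJ_star, QuaternionAlgebra.imK_star, QuaternionAlgebra.re_coe,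
      QuaternionAlgebra.imI_coe, QuaternionAlgebra.imJ_coe, QuaternionAlgebra.imK_coe, nrd] <;>
    ring

theorem isUnit_of_nrd {x : Qt a b} (hn : nrd x ≠ 0) : IsUnit x := by
  have e3 : ((nrd x : F) : Qt a b) * (((nrd x)⁻¹ : F) : Qt a b) = 1 := by
    rw [← QuaternionAlgebra.coe_mul, mul_inv_cancel₀ hn, QuaternionAlgebra.coe_one]
  have e4 : (((nrd x)⁻¹ : F) : Qt a b) * ((nrd x : F) : Qt a b) = 1 := by
    rw [← QuaternionAlgebra.coe_mul, inv_mul_cancel₀ hn, QuaternionAlgebra.coe_one]
  refine ⟨⟨x, star x * (((nrd x)⁻¹ : F) : Qt a b), ?_, ?_⟩, rfl⟩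
  · rw [← mul_assoc, mul_star_qt, e3]
  · rw [← QuaternionAlgebra.coe_commutes, mul_assoc, star_mul_qt, e4]

theorem herN_conj (h2 : (2 : F) ≠ 0) (hQ : Aniso a b)
    (hf : ∀ x, (f x).det = algebraMap F F' (nrd x)) (M : Matrix (Fin 3) (Fin 3) (Qt a b)) :
    ∀ S : Matrix (Fin 3) (Fin 3) (Qt a b), S.IsHermitian →
      algebraMap F F' (herN (M * S * Mᴴ)) = rN f M * algebraMap F F' (herN S) := by
  have hD : ∀ x : Qt a b, IsUnit x ∨ x = 0 := by
    intro x
    by_cases hx : x = 0
    · exact Or.inr hx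
    · exact Or.inl (isUnit_of_nrd fun h => hx (hQ x h))
  apply mat3_induction' hD (P := fun M => ∀ S : Matrix (Fin 3) (Fin 3) (Qt a b), S.IsHermitian →
      algebraMap F F' (herN (M * S * Mᴴ)) = rN f M * algebraMap F F' (herN S))
  · intro A B hA hB S hS
    rw [rN_mul, mul_assoc (rN f A), ← hB S hS, ← hA (B * S * Bᴴ) (by
      rw [IsHermitian, conjTranspose_mul, conjTranspose_mul, conjTranspose_conjTranspose, hS.eq,
        mul_assoc])]
    rw [conjTranspose_mul]
    simp only [mul_assoc]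
  · intro i j q S hS
    rw [rN_single, eq_her h2 hS]
    by_cases hij : i = j
    · subst hij
      rw [if_pos rfl, herN_single_diag, hf, map_mul]
    · rw [if_neg hij, herN_single hij, one_mul]

end norm

end Vale.Agent.P011.E6.H64
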