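import Vale.Agent.P011.MathlibUsed

/-!
An induction principle for square matrices of size three over a division ring.
-/

open Matrix

namespace Vale.Agent.P011.E6.H64

section ring

variable {D : Type} [Ring D]

theorem one_add_single_mul (i j : Fin 3) (q : D) (M : Matrix (Fin 3) (Fin 3) D)
    (r c : Fin 3) : ((1 + single i j q) * M) r c = M r c + if r = i then q * M j c else 0 := by
  rw [add_mul, one_mul, Matrix.add_apply]
  congr 1
  by_cases h : r = i
  · subst h
    rw [if_pos rfl, single_mul_apply_same]
  · rw [if_neg h, single_mul_apply_of_ne]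
    exact h

theorem mul_one_add_single (i j : Fin 3) (q : D) (M : Matrix (Fin 3) (Fin 3) D)
    (r c : Fin 3) : (M * (1 + single i j q)) r c = M r c + if c = j then M r i * q else 0 := by
  rw [mul_add, mul_one, Matrix.add_apply]
  congr 1
  by_cases h : c = j
  · subst h
    rw [if_pos rfl, mul_single_apply_same]
  · rw [if_neg h, mul_single_apply_of_ne]
    exact h

theorem one_add_single_inv {i j : Fin 3} (hij : i ≠ j) (q : D) :
    (1 + single i j q) * (1 + single i j (-q)) = (1 : Matrix (Fin 3) (Fin 3) D) := by
  rw [mul_add, mul_one, add_mul, one_mul]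
  have h1 : (single i j q : Matrix (Fin 3) (Fin 3) D) * single i j (-q) = 0 := by
    rw [single_mul_single_of_ne]
    exact hij.symm
  rw [h1, add_zero, add_assoc, ← single_add, add_neg_cancel, single_zero, add_zero]

theorem one_add_single_inv' {i j : Fin 3} (hij : i ≠ j) (q : D) :
    (1 + single i j (-q)) * (1 + single i j q) = (1 : Matrix (Fin 3) (Fin 3) D) := by
  have h := one_add_single_inv hij (-q)
  rwa [neg_neg] at h

end ring

section ind

variable {D : Type} [DivisionRing D]

/-- Induction for matrices of size three. -/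
theorem mat3_induction (P : Matrix (Fin 3) (Fin 3) D → Prop)
    (hmul : ∀ A B, P A → P B → P (A * B)) (hE : ∀ i j q, P (1 + single i j q))
    (M : Matrix (Fin 3) (Fin 3) D) : P M := by
  -- diagonal matrices
  have hd1 : ∀ (i : Fin 3) (d : D), P (1 + single i i (d - 1)) := fun i d => hE i i _
  have hleft : ∀ {i j : Fin 3}, i ≠ j → ∀ (q : D) (A : Matrix (Fin 3) (Fin 3) D),
      P ((1 + single i j q) * A) → P A := by
    intro i j hij q A hA
    have h := hmul _ _ (hE i j (-q)) hA
    rwa [← mul_assoc, one_add_single_inv' hij, one_mul] at h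
  have hright : ∀ {i j : Fin 3}, i ≠ j → ∀ (q : D) (A : Matrix (Fin 3) (Fin 3) D),
      P (A * (1 + single i j q)) → P A := by
    intro i j hij q A hA
    have h := hmul _ _ hA (hE i j (-q))
    rwa [mul_assoc, one_add_single_inv hij, mul_one] at h
  -- the diagonal case
  have hdiag : ∀ d : Fin 3 → D, P (diagonal d) := by
    intro d
    have h : diagonal d = (1 + single 0 0 (d 0 - 1)) * ((1 + single 1 1 (d 1 - 1)) *
        (1 + single 2 2 (d 2 - 1))) := by
      ext r c
      rw [one_add_single_mul, one_add_single_mul, one_add_single_mul]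
      fin_cases r <;> fin_cases c <;> simp [single, diagonal]
    rw [h]
    exact hmul _ _ (hd1 0 _) (hmul _ _ (hd1 1 _) (hd1 2 _))
  -- block diagonal with only the entry at the end
  have h2 : ∀ A : Matrix (Fin 3) (Fin 3) D, A 0 1 = 0 → A 0 2 = 0 → A 1 0 = 0 → A 2 0 = 0 →
      P A := by
    intro A h01 h02 h10 h20
    -- reduce to `A 1 1 ≠ 0` or the second row and column vanish
    have key : ∀ B : Matrix (Fin 3) (Fin 3) D, B 0 1 = 0 → B 0 2 = 0 → B 1 0 = 0 → B 2 0 = 0 →
        B 1 1 ≠ 0 → P B := by
      intro B b01 b02 b10 b20 b11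
      apply hleft (i := 2) (j := 1) (by decide) (-(B 2 1 * (B 1 1)⁻¹))
      apply hright (i := 1) (j := 2) (by decide) (-((B 1 1)⁻¹ * B 1 2))
      have h : (1 + single (2 : Fin 3) 1 (-(B 2 1 * (B 1 1)⁻¹))) * B *
          (1 + single (1 : Fin 3) 2 (-((B 1 1)⁻¹ * B 1 2))) =
          diagonal ![B 0 0, B 1 1, B 2 2 - B 2 1 * (B 1 1)⁻¹ * B 1 2] := by
        ext r c
        rw [mul_one_add_single, one_add_single_mul, one_add_single_mul]
        fin_cases r <;> fin_cases c <;>
          simp [diagonal, b01, b02, b10, b20, mul_assoc, b11, sub_eq_add_neg]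
      rw [h]
      exact hdiag _
    by_cases h11 : A 1 1 = 0
    · by_cases h21 : A 2 1 = 0
      · by_cases h12 : A 1 2 = 0
        · have h : A = diagonal ![A 0 0, A 1 1, A 2 2] := by
            ext r c
            fin_cases r <;> fin_cases c <;> simp [diagonal, h01, h02, h10, h20, h12, h21]
          rw [h]
          exact hdiag _
        · apply hright (i := 2) (j := 1) (by decide) 1
          apply key
          all_goals simp [mul_one_add_single, h01, h02, h10, h20, h11, h12]
      · apply hleft (i := 1) (j := 2) (by decide) 1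
        apply key
        all_goals simp [one_add_single_mul, h01, h02, h10, h20, h11, h21]
    · exact key A h01 h02 h10 h20 h11
  have key : ∀ B : Matrix (Fin 3) (Fin 3) D, B 0 0 ≠ 0 → P B := by
    intro B b00
    apply hleft (i := 1) (j := 0) (by decide) (-(B 1 0 * (B 0 0)⁻¹))
    apply hleft (i := 2) (j := 0) (by decide) (-(B 2 0 * (B 0 0)⁻¹))
    apply hright (i := 0) (j := 1) (by decide) (-((B 0 0)⁻¹ * B 0 1))
    apply hright (i := 0) (j := 2) (by decide) (-((B 0 0)⁻¹ * B 0 2))
    apply h2
    all_goals simp [mul_one_add_single, one_add_single_mul, b00, mul_assoc]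
  by_cases h00 : M 0 0 = 0
  · by_cases h10 : M 1 0 = 0
    · by_cases h20 : M 2 0 = 0
      · by_cases h01 : M 0 1 = 0
        · by_cases h02 : M 0 2 = 0
          · exact h2 M h01 h02 h10 h20
          · apply hright (i := 2) (j := 0) (by decide) 1
            apply key
            simp [mul_one_add_single, h00, h02]
        · apply hright (i := 1) (j := 0) (by decide) 1
          apply key
          simp [mul_one_add_single, h00, h01]
      · apply hleft (i := 0) (j := 2) (by decide) 1
        apply key
        simp [one_add_single_mul, h00, h20]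
    · apply hleft (i := 0) (j := 1) (by decide) 1
      apply key
      simp [one_add_single_mul, h00, h10]
  · exact key M h00

end ind

/-- Induction for matrices of size three over a ring in which every nonzero element is a unit. -/
theorem mat3_induction' {D : Type} [Ring D] [Nontrivial D] (hD : ∀ x : D, IsUnit x ∨ x = 0)
    (P : Matrix (Fin 3) (Fin 3) D → Prop)
    (hmul : ∀ A B, P A → P B → P (A * B)) (hE : ∀ i j q, P (1 + single i j q))
    (M : Matrix (Fin 3) (Fin 3) D) : P M := by
  let _ := DivisionRing.ofIsUnitOrEqZero hD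
  exact mat3_induction P hmul hE M

end Vale.Agent.P011.E6.H64
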