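import Vale.Agent.P011.MPQ.Defs
import Vale.Agent.P011.MathlibUsed

/-!
A splitting of a quaternion algebra over a field containing a square root.
-/

open Matrix

namespace Vale.Agent.P011.E6.H64

open Vale.Agent.P011.MPQ

section split

variable {F F' : Type} [Field F] [Field F'] [Algebra F F'] {a b : Fˣ}

theorem smul_mat2 (t : F) (x y z w : F') :
    t • (!![x, y; z, w] : Matrix (Fin 2) (Fin 2) F') =
      !![algebraMap F F' t * x, algebraMap F F' t * y; algebraMap F F' t * z,
        algebraMap F F' t * w] := by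
  simp only [← Algebra.smul_def]
  ext i j
  fin_cases i <;> fin_cases j <;> rfl

theorem one_mat2 : (1 : Matrix (Fin 2) (Fin 2) F') = !![1, 0; 0, 1] := Matrix.one_fin_two

/-- The basis of the matrix algebra given by a square root of `a`. -/
def splitBasis (s : F') (hs : s * s = algebraMap F F' a) (b : Fˣ) :
    QuaternionAlgebra.Basis (Matrix (Fin 2) (Fin 2) F') (a : F) 0 (b : F) where
  i := !![s, 0; 0, -s]
  j := !![0, algebraMap F F' b; 1, 0]
  k := !![0, s * algebraMap F F' b; -s, 0]
  i_mul_i := by
    rw [one_mat2, smul_mat2, smul_mat2]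
    simp [hs]
  j_mul_j := by
    rw [one_mat2, smul_mat2]
    simp
    exact (Algebra.algebraMap_eq_smul_one _).symm
  i_mul_j := by
    simp
  j_mul_i := by
    rw [zero_smul, zero_sub]
    simp
    rw [mul_comm, Algebra.smul_def]

/-- The splitting. -/
def splitF (s : F') (hs : s * s = algebraMap F F' a) (b : Fˣ) :
    Qt a b →ₐ[F] Matrix (Fin 2) (Fin 2) F' :=
  (splitBasis s hs b).liftHom

theorem det_splitF (s : F') (hs : s * s = algebraMap F F' a) (x : Qt a b) :
    (splitF s hs b x).det = algebraMap F F' (nrd x) := by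
  have h : splitF s hs b x = !![algebraMap F F' x.re + algebraMap F F' x.imI * s,
      algebraMap F F' x.imJ * algebraMap F F' b + algebraMap F F' x.imK * (s * algebraMap F F' b);
      algebraMap F F' x.imJ - algebraMap F F' x.imK * s,
      algebraMap F F' x.re - algebraMap F F' x.imI * s] := by
    change algebraMap F _ x.re + x.imI • (!![s, 0; 0, -s] : Matrix (Fin 2) (Fin 2) F') +
      x.imJ • (!![0, algebraMap F F' b; 1, 0] : Matrix (Fin 2) (Fin 2) F') +
      x.imK • (!![0, s * algebraMap F F' b; -s, 0] : Matrix (Fin 2) (Fin 2) F') = _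
    rw [Algebra.algebraMap_eq_smul_one, one_mat2, smul_mat2, smul_mat2, smul_mat2, smul_mat2]
    simp [sub_eq_add_neg]
  rw [h, Matrix.det_fin_two_of, nrd]
  simp only [map_add, map_sub, map_mul, map_pow, ← hs]
  ring

variable (a b) in
theorem exists_split : ∃ f : Qt a b →ₐ[F] Matrix (Fin 2) (Fin 2) (AlgebraicClosure F),
    ∀ x, (f x).det = algebraMap F (AlgebraicClosure F) (nrd x) := by
  obtain ⟨s, hs⟩ := IsAlgClosed.exists_pow_nat_eq (algebraMap F (AlgebraicClosure F) a)
    (n := 2) (by norm_num)
  rw [pow_two] at hs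
  exact ⟨splitF s hs b, det_splitF s hs⟩

end split

end Vale.Agent.P011.E6.H64
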